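import Vale.Agent.P144Z.I2.Cont

/-!
The generating function of the sources as a Grassmann integral.
-/

namespace Vale.Agent.P144Z.I2

open Finset Matrix A1

variable (g : Geo)

theorem noF_bv (k : g.K) : g.noF (g.bv k) = g.bv k := by
  rw [Geo.bv, Geo.noF, evMap_pp, res_single (Set.mem_range_self _),
    res_single (Set.mem_range_self _)]

theorem noF_prod {ι : Type} (s : Finset ι) (F : ι → g.E) :
    g.noF (∏ i ∈ s, F i) = ∏ i ∈ s, g.noF (F i) := evMap_prod _ s F

theorem noF_exp_Hin (q : Par) (n : g.Cfg) :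
    g.noF (NormedSpace.exp (∑ X, g.Hin q X) n) = NormedSpace.exp (∑ X, g.Hin q X) n := by
  rw [exp_Hin, map_smul, noF_prod]
  simp only [map_add, map_smul, noF_one, noF_bv]

theorem uint_par0 {M : ℕ} [NeZero M] (n : Tor M × Fin 2 → Bool) : uint par0 n = 0 := by
  simp [uint, par0]

/-- The free partition function. -/
theorem Om_one : g.Om 1 = Zw par0 g.A (fun _ => 1) • 1 := by
  have := contour g tc one_ne_zero 1 fun _ => noF_one g
  simp only [sub_self, mul_zero, zero_smul, add_zero, Finset.sum_const_zero, NormedSpace.exp_zero,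
    E0_one, mul_one, one_pow, one_smul, Pi.one_apply, ← Finset.sum_smul] at this
  rw [this, Zw]
  simp only [uint_par0, Real.exp_zero, mul_one]
  rfl

/-- The generating function of the sources. -/
theorem Om_init (q : Par) (hZ : q.Z ≠ 0) :
    g.Om (NormedSpace.exp (∑ y, (g.init q).v y) *
      g.E0 (q.x * q.Z) (NormedSpace.exp (∑ X, g.Hin q X))) =
      q.Z ^ (2 * g.M ^ 2) • ∑ n, (cw n * wt g.A q.x n * Real.exp (uint q n)) •
        ∏ k, (1 + (g.src k).O (g.see (g.src k).y n) • g.bv k) := by
  have := contour g q.x hZ _ (noF_exp_Hin g q)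
  simp only [exp_Hin, smul_smul] at this
  exact this

end Vale.Agent.P144Z.I2
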