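import Vale.Agent.P144Z.I2.Om

/-!
The contour sum as a Grassmann integral with the field strength `Z`.
-/

namespace Vale.Agent.P144Z.I2

open Finset Matrix A1

section
variable {S S' : Type} [Fintype S] [DecidableEq S] [Fintype S'] [DecidableEq S']

theorem exp_add' (F G : Ev S) :
    NormedSpace.exp (F + G) = NormedSpace.exp F * NormedSpace.exp G := by
  let _ : NormedAlgebra ℚ (Ev S) := NormedAlgebra.restrictScalars ℚ ℝ (Ev S)
  exact NormedSpace.exp_add

theorem exp_sum' {ι : Type} (s : Finset ι) (F : ι → Ev S) :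
    NormedSpace.exp (∑ i ∈ s, F i) = ∏ i ∈ s, NormedSpace.exp (F i) := by
  let _ : NormedAlgebra ℚ (Ev S) := NormedAlgebra.restrictScalars ℚ ℝ (Ev S)
  exact NormedSpace.exp_sum s F

theorem exp_pi {ι : Type} [Fintype ι] (F : ι → Ev S) (i : ι) :
    NormedSpace.exp F i = NormedSpace.exp (F i) := by
  let _ : NormedAlgebra ℚ (Ev S) := NormedAlgebra.restrictScalars ℚ ℝ (Ev S)
  exact Pi.coe_exp F i

theorem exp_sum_sq {ι : Type} (s : Finset ι) (F : ι → Ev S) (h : ∀ i, F i * F i = 0) :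
    NormedSpace.exp (∑ i ∈ s, F i) = ∏ i ∈ s, (1 + F i) := by
  rw [exp_sum']
  exact Finset.prod_congr rfl fun i _ => exp_sq_zero (h i)

theorem exp_occ {ι : Type} [Fintype ι] [DecidableEq ι] (a : ι → Ev S) (h : ∀ i, a i * a i = 0)
    (F : (ι → Bool) → Ev S) :
    NormedSpace.exp (∑ i, a i) * ∑ n : ι → Bool, F n * ∏ i, (if n i then a i else 1 - a i) =
      ∑ n : ι → Bool, F n * ∏ i, if n i then a i else 1 := by
  rw [exp_sum_sq _ _ h, Finset.mul_sum]
  refine Finset.sum_congr rfl fun n _ => ?_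
  rw [mul_left_comm, ← Finset.prod_mul_distrib]
  refine congrArg _ (Finset.prod_congr rfl fun e _ => ?_)
  split_ifs
  · rw [add_mul, one_mul, h, add_zero]
  · rw [add_mul, one_mul, mul_sub, mul_one, h, sub_zero, sub_add_cancel]

omit [Fintype S'] [DecidableEq S'] in
theorem wick2 {C : Matrix S S ℝ} (hC : Cᵀ = -C) (P : (S → ℝ) →ₗ[ℝ] (S' → ℝ)) {a b : S → ℝ}
    (ha : P a = 0) :
    ExteriorAlgebra.map P (gauss C (psi a * psi b)) = (a ⬝ᵥ C *ᵥ b) • 1 := by
  rw [gauss_psi_mul hC, gauss_psi, del_psi, map_add, map_mul, map_psi, ha, psi_zero, zero_mul,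
    zero_add, map_smul, map_one, dotProduct_comm, ← dotProduct_mulVec]

omit [Fintype S'] [DecidableEq S'] in
theorem wick4 {C : Matrix S S ℝ} (hC : Cᵀ = -C) (P : (S → ℝ) →ₗ[ℝ] (S' → ℝ)) {a b c d : S → ℝ}
    (ha : P a = 0) (hb : P b = 0) (hc : P c = 0) :
    ExteriorAlgebra.map P (gauss C (psi a * psi b * (psi c * psi d))) =
      ((a ⬝ᵥ C *ᵥ b) * (c ⬝ᵥ C *ᵥ d) - (a ⬝ᵥ C *ᵥ c) * (b ⬝ᵥ C *ᵥ d) +
        (a ⬝ᵥ C *ᵥ d) * (b ⬝ᵥ C *ᵥ c)) • 1 := by
  have e : ∀ x : S → ℝ, x ⬝ᵥ a ᵥ* C = a ⬝ᵥ C *ᵥ x := fun x => by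
    rw [dotProduct_comm, ← dotProduct_mulVec]
  rw [mul_assoc, gauss_psi_mul hC, map_add, map_mul, map_psi, ha, psi_zero, zero_mul, zero_add,
    ← gauss_del, del_psi_mul, del_psi_mul, del_psi, mul_smul_comm, mul_one, mul_sub, mul_smul_comm,
    mul_smul_comm, e, e, e]
  simp only [map_sub, map_smul, wick2 hC P hb, wick2 hC P hc, smul_smul]
  rw [← sub_smul, ← sub_smul]
  congr 1
  ring

end

variable (g : Geo)

theorem E0_apply (w : ℝ) (F : g.Cfg → g.E) : g.E0 w F = ∑ n : g.Cfg, F n *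
    ∏ e : Tor g.M × Fin 2, if n e then w • g.edge e.1 e.2 else 1 - w • g.edge e.1 e.2 := rfl

theorem E0_exp (w : ℝ) (F : g.Cfg → g.E) :
    NormedSpace.exp (w • ∑ e : Tor g.M × Fin 2, g.edge e.1 e.2) * g.E0 w F =
      ∑ n : g.Cfg, F n * ∏ e : Tor g.M × Fin 2, if n e then w • g.edge e.1 e.2 else 1 := by
  rw [Finset.smul_sum, E0_apply]
  exact exp_occ (fun e : Tor g.M × Fin 2 => w • g.edge e.1 e.2)
    (fun e => smul_sq (edge_sq g e.1 e.2) w) F

theorem site_eq (x : g.P) : g.site x =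
    pp (g.ex (Pi.single (x, 0) 1 + Pi.single (x, 1) 1))
      (g.ex (Pi.single (x, 1) 1 + Pi.single (x, 2) 1 + Pi.single (x, 3) 1)) +
    pp (g.ex (Pi.single (x, 2) 1)) (g.ex (Pi.single (x, 3) 1)) := by
  have e : ∀ a b, g.ex (a + b) = g.ex a + g.ex b := map_add (exL g)
  apply Ev.val_injective
  simp only [Geo.site, Fin.sum_univ_four, e, ex_single, map_add, val_pp, psi_add, add_mul, mul_add,
    psi_sq]
  simp only [show ¬ ((0 : Fin 4) < 0) by decide, show (0 : Fin 4) < 1 by decide,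
    show (0 : Fin 4) < 2 by decide, show (0 : Fin 4) < 3 by decide,
    show ¬ ((1 : Fin 4) < 0) by decide, show ¬ ((1 : Fin 4) < 1) by decide,
    show (1 : Fin 4) < 2 by decide, show (1 : Fin 4) < 3 by decide,
    show ¬ ((2 : Fin 4) < 0) by decide, show ¬ ((2 : Fin 4) < 1) by decide,
    show ¬ ((2 : Fin 4) < 2) by decide, show (2 : Fin 4) < 3 by decide,
    show ¬ ((3 : Fin 4) < 0) by decide, show ¬ ((3 : Fin 4) < 1) by decide,
    show ¬ ((3 : Fin 4) < 2) by decide, show ¬ ((3 : Fin 4) < 3) by decide, if_true, if_false,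
    map_zero, val_pp]
  abel

theorem ex_exM (C : Matrix (Tor g.M × Fin 4) (Tor g.M × Fin 4) ℝ) (a b : Tor g.M × Fin 4 → ℝ) :
    g.ex a ⬝ᵥ g.exM C *ᵥ g.ex b = a ⬝ᵥ C *ᵥ b := by
  rw [dotProduct_mulVec, vecMul_exM, ex_inl, ex_dot, ex_inl, dotProduct_mulVec]

theorem exp_site (t : ℝ) (x : g.P) :
    ExteriorAlgebra.map (pS g) (gauss (g.exM (gM g.M)) (Ev.val (NormedSpace.exp (t • g.site x))))
      = (1 + t) ^ 2 • 1 := by
  have hC := exM_anti g (gM_anti g.M)
  rw [site_eq, smul_add, exp_add', exp_sq_zero (smul_sq (pp_sq _ _) t),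
    exp_sq_zero (smul_sq (pp_sq _ _) t)]
  simp only [map_mul, map_add, map_one, map_smul, val_pp, add_mul, mul_add, one_mul, mul_one,
    smul_mul_smul_comm, gauss_one, wick2 hC (pS g) (pS_ex g _),
    wick4 hC (pS g) (pS_ex g _) (pS_ex g _) (pS_ex g _), ex_exM, smul_smul]
  simp only [add_dotProduct, mulVec_add, dotProduct_add, single_one_dotProduct, mulVec_single_one,
    col_apply, gM, of_apply, if_true, gA_eq]
  nth_rewrite 1 [← one_smul ℝ (1 : Gr g.S)]
  simp only [← add_smul]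
  congr 1
  simp
  ring

theorem site_loc (t : ℝ) (x : g.P) :
    Ev.val (NormedSpace.exp (t • g.site x)) ∈ loc {s : g.S | ∃ a, s = Sum.inl (x, a)} := by
  refine exp_mem (T := {s : g.S | ∃ a, s = Sum.inl (x, a)}) (Subalgebra.smul_mem _ ?_ t)
  refine Subalgebra.sum_mem _ fun a _ => Subalgebra.sum_mem _ fun b _ => ?_
  split_ifs
  · change Ev.val _ ∈ loc _
    rw [val_pp]
    exact Subalgebra.mul_mem _ (gen_mem ⟨a, rfl⟩) (gen_mem ⟨b, rfl⟩)
  · exact Subalgebra.zero_mem _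

theorem exp_sites (t : ℝ) (X : Finset g.P) :
    ExteriorAlgebra.map (pS g) (gauss (g.exM (gM g.M))
      (Ev.val (NormedSpace.exp (t • ∑ x ∈ X, g.site x)))) = ((1 + t) ^ (2 * X.card)) • 1 := by
  have hC := exM_anti g (gM_anti g.M)
  induction X using Finset.induction_on with
  | empty => simp [gauss_one]
  | insert x X hx ih =>
    have hl : Ev.val (NormedSpace.exp (t • ∑ y ∈ X, g.site y)) ∈
        loc {s : g.S | ∃ y ∈ X, ∃ a, s = Sum.inl (y, a)} := by
      rw [Finset.smul_sum, exp_sum']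
      refine Subalgebra.prod_mem (evLoc _) fun y hy => ?_
      refine loc_mono ?_ (site_loc g t y)
      rintro s ⟨a, ha⟩
      exact ⟨y, hy, a, ha⟩
    rw [Finset.sum_insert hx, smul_add, exp_add', map_mul,
      gauss_mul hC (site_loc g t x) hl, map_mul, exp_site, ih, Finset.card_insert_of_notMem hx,
      smul_mul_smul_comm, mul_one, mul_add, mul_one, pow_add, mul_comm]
    rintro _ ⟨a, rfl⟩ _ ⟨y, hy, b, rfl⟩
    exact if_neg fun h : x = y => hx (h ▸ hy)

/-- Multiplication of the fields by `c`. -/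
noncomputable def scF (c : ℝ) : (g.S → ℝ) →ₗ[ℝ] (g.S → ℝ) :=
  c • (LinearMap.id - pS g) + pS g

theorem scF_ex (c : ℝ) (δ : Tor g.M × Fin 4 → ℝ) : scF g c (g.ex δ) = c • g.ex δ := by
  simp [scF, pS_ex]

theorem pS_scF (c : ℝ) : pS g ∘ₗ scF g c = pS g := by
  refine LinearMap.ext fun δ => ?_
  simp [scF, pS_pS]

theorem scF_pS (c : ℝ) : scF g c ∘ₗ pS g = pS g := by
  refine LinearMap.ext fun δ => ?_
  simp [scF, pS_pS]

theorem scF_inl (c : ℝ) (δ : g.S → ℝ) : scF g c δ ∘ Sum.inl = c • (δ ∘ Sum.inl) := by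
  funext s
  simp [scF, pS_inl]

theorem scF_src (c : ℝ) {F : g.E} (hF : g.noF F = F) : evMap (scF g c) F = F := by
  apply Ev.val_injective
  conv_lhs => rw [← hF]
  rw [val_evMap, val_noF, map_map, scF_pS, ← val_noF, hF]

theorem scF_edge (c : ℝ) (x : g.P) (i : Fin 2) :
    evMap (scF g c) (g.edge x i) = (c * c) • g.edge x i := by
  rw [Geo.edge, map_smul, evMap_pp, ← ex_single, ← ex_single, scF_ex, scF_ex, pp_smul_smul,
    smul_comm]

theorem dot_exM (C : Matrix (Tor g.M × Fin 4) (Tor g.M × Fin 4) ℝ) (a b : g.S → ℝ) :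
    a ⬝ᵥ g.exM C *ᵥ b = (a ∘ Sum.inl) ⬝ᵥ C *ᵥ (b ∘ Sum.inl) := by
  rw [dotProduct_mulVec, vecMul_exM, dotProduct_comm, ex_dot, dotProduct_comm, dotProduct_mulVec]

/-- The change of the field strength. -/
theorem noF_site {Z : ℝ} (hZ : Z ≠ 0) (G : g.E) :
    g.noF (evG (g.exM (gM g.M)) (NormedSpace.exp ((Z - 1) • ∑ x, g.site x) * G)) =
      Z ^ (2 * g.M ^ 2) • g.noF (evG (g.exM (Z⁻¹ • gM g.M)) G) := by
  have hC := exM_anti g (gM_anti g.M)
  have hC' : (g.exM (Z⁻¹ • gM g.M))ᵀ = -g.exM (Z⁻¹ • gM g.M) :=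
    exM_anti g (by rw [transpose_smul, gM_anti, smul_neg])
  have key := fn_eq (pS g) (R := Matrix.fromBlocks (Z⁻¹ • 1) 0 0 1) hC hC' (Ev.val_mem _)
    (del_exp_exM g (uM g.M) (Z - 1)) (by
      rw [uM_sub, Geo.exM, Geo.exM, Matrix.fromBlocks_multiply, Matrix.mul_smul, gM_mul_sM,
        ← Matrix.fromBlocks_one, sub_eq_add_neg, Matrix.fromBlocks_neg, Matrix.fromBlocks_add,
        Matrix.fromBlocks_multiply]
      congr 1 <;> simp
      rw [sub_smul, one_smul, ← smul_add, add_sub_cancel, smul_smul, inv_mul_cancel₀ hZ,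
        one_smul])
    (by rw [Geo.exM, Geo.exM, Matrix.fromBlocks_multiply]; simp)
    (fun δ => by
      funext s
      rcases s with s | k
      · rw [pS_inl, pS_inl]
      · rw [pS_inr, pS_inr, Matrix.vecMul_fromBlocks]; simp)
    (Ev.val G)
  rw [fn_apply, fn_apply, mul_one, ← sum_site, exp_sites, mul_smul_comm, mul_one,
    add_sub_cancel, Finset.card_univ, Fintype.card_prod, ZMod.card, ← sq] at key
  apply Ev.val_injective
  rw [map_smul, val_noF, val_noF, val_evG, val_evG, map_mul]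
  exact key

theorem evG_scF {C : Matrix (Tor g.M × Fin 4) (Tor g.M × Fin 4) ℝ} (hC : Cᵀ = -C) {c d : ℝ}
    (h : d * (c * c) = 1) (G : g.E) :
    evG (g.exM (d • C)) (evMap (scF g c) G) = evMap (scF g c) (evG (g.exM C) G) := by
  have hC' : (g.exM (d • C))ᵀ = -g.exM (d • C) :=
    exM_anti g (by rw [transpose_smul, hC, smul_neg])
  apply Ev.val_injective
  rw [val_evG, val_evMap, val_evMap, val_evG]
  refine gauss_map (exM_anti g hC) hC' (scF g c) (mem_loc_univ _) fun s _ s' _ => ?_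
  rw [dot_exM, scF_inl, scF_inl, smul_mulVec, mulVec_smul, dotProduct_smul, dotProduct_smul,
    smul_dotProduct, ← dot_exM, single_one_dotProduct, mulVec_single_one, col_apply,
    smul_eq_mul, smul_eq_mul, smul_eq_mul, ← mul_assoc c, ← mul_assoc, h, one_mul]

theorem noF_scF (c : ℝ) (G : g.E) : g.noF (evMap (scF g c) G) = g.noF G := by
  apply Ev.val_injective
  rw [val_noF, val_evMap, map_map, pS_scF, val_noF]

theorem edge0 (M : ℕ) [NeZero M] (x : Tor M) (i : Fin 2) : (geo0 M).edge x i =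
    pp (Pi.single (Sum.inl (x, if i = 0 then 0 else 1)) 1)
      (Pi.single (Sum.inl (x + uv M i, if i = 0 then 2 else 3)) 1) := one_smul ℝ _

theorem single_inl {α β : Type} [DecidableEq α] [DecidableEq β] (s t : α) :
    (Pi.single (Sum.inl s) 1 : α ⊕ β → ℝ) (Sum.inl t) = (Pi.single s 1 : α → ℝ) t := by
  simp [Pi.single_apply]

/-- The Grassmann sign does not depend on the sources. -/
theorem noF_edges (x : ℝ) (n : g.Cfg) :
    g.noF (evG (g.exM (gM g.M))
      (∏ e : Tor g.M × Fin 2, if n e then x • g.edge e.1 e.2 else 1)) =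
      (cw n * wt g.A x n) • 1 := by
  let f : ((geo0 g.M).S → ℝ) →ₗ[ℝ] (g.S → ℝ) := exL g ∘ₗ LinearMap.funLeft ℝ ℝ Sum.inl
  have hf : ∀ δ, f δ = g.ex (δ ∘ Sum.inl) := fun _ => rfl
  have h1 : ∀ s : Tor g.M × Fin 4, f (Pi.single (Sum.inl s) 1) = Pi.single (Sum.inl s) 1 :=
    fun s => by
      rw [hf, ← ex_single]
      congr 1
      funext t
      exact single_inl s t
  have h2 : (∏ e : Tor g.M × Fin 2, if n e then x • g.edge e.1 e.2 else 1) = wt g.A x n •
      evMap f (∏ e : Tor g.M × Fin 2, if n e then (geo0 g.M).edge e.1 e.2 else 1) := by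
    rw [evMap_prod, wt, ← Finset.prod_smul]
    refine Finset.prod_congr rfl fun e _ => ?_
    split_ifs
    · rw [Geo.edge, smul_smul]
      congr 1
      refine Eq.symm ((congrArg (evMap f) (edge0 g.M e.1 e.2)).trans ((evMap_pp f _ _).trans ?_))
      exact congrArg₂ pp (h1 _) (h1 _)
    · rw [evMap_one, one_smul]
  have h3 : pS g ∘ₗ f = 0 := LinearMap.ext fun δ => pS_ex g _
  apply Ev.val_injective
  rw [h2, map_smul, map_smul, map_smul, val_noF, val_evG, val_evMap,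
    gauss_map (exM_anti (geo0 g.M) (gM_anti g.M)) (exM_anti g (gM_anti g.M)) f (mem_loc_univ _),
    map_map, h3, map_zero_eq, map_smul, map_one, smul_smul, mul_comm, cw, val_evG]
  intro s _ s' _
  rw [hf, hf, ex_exM]
  refine (dot_exM (geo0 g.M) (gM g.M) _ _).symm.trans ?_
  rw [single_one_dotProduct, mulVec_single_one, col_apply]

theorem map_rev {S S' : Type} (f : (S → ℝ) →ₗ[ℝ] (S' → ℝ)) (F : Gr S) :
    ExteriorAlgebra.map f (rev F) = rev (ExteriorAlgebra.map f F) := by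
  induction F using left_ind with
  | h1 => simp only [rev_one, map_one]
  | hadd F G hF hG => simp only [map_add, hF, hG]
  | hsmul c F hF => simp only [map_smul, hF]
  | hpsi a F hF => simp only [rev_mul, map_mul, rev_psi, map_psi, hF]

theorem rev_edges (w : ℝ) (n : g.Cfg) (s : Finset (Tor g.M × Fin 2)) :
    Ev.val (∏ e ∈ s, if n e then (-w) • g.edge e.1 e.2 else 1) =
      rev (Ev.val (∏ e ∈ s, if n e then w • g.edge e.1 e.2 else 1)) := by
  induction s using Finset.induction_on with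
  | empty => simp only [Finset.prod_empty, map_one, rev_one]
  | insert e s he ih =>
    rw [Finset.prod_insert he, Finset.prod_insert he, mul_comm, map_mul, map_mul, rev_mul, ih]
    congr 1
    split_ifs
    · simp only [Geo.edge, map_smul, val_pp, rev_mul, rev_psi]
      rw [psi_swap, smul_neg, neg_smul_neg]
    · rw [map_one, rev_one]

theorem noF_edges_pos (x : ℝ) {Z : ℝ} (hZ : 0 < Z) (n : g.Cfg) :
    g.noF (evG (g.exM (Z⁻¹ • gM g.M))
      (∏ e : Tor g.M × Fin 2, if n e then (x * Z) • g.edge e.1 e.2 else 1)) =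
      (cw n * wt g.A x n) • 1 := by
  have e : (∏ e : Tor g.M × Fin 2, if n e then (x * Z) • g.edge e.1 e.2 else 1) =
      evMap (scF g √Z) (∏ e : Tor g.M × Fin 2, if n e then x • g.edge e.1 e.2 else 1) := by
    rw [evMap_prod]
    refine Finset.prod_congr rfl fun e _ => ?_
    split_ifs
    · rw [map_smul, scF_edge, Real.mul_self_sqrt hZ.le, smul_smul]
    · rw [evMap_one]
  rw [e, evG_scF g (gM_anti _) (by rw [Real.mul_self_sqrt hZ.le, inv_mul_cancel₀ hZ.ne']),
    noF_scF, noF_edges]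

theorem noF_edges_ne (x : ℝ) {Z : ℝ} (hZ : Z ≠ 0) (n : g.Cfg) :
    g.noF (evG (g.exM (Z⁻¹ • gM g.M))
      (∏ e : Tor g.M × Fin 2, if n e then (x * Z) • g.edge e.1 e.2 else 1)) =
      (cw n * wt g.A x n) • 1 := by
  rcases hZ.lt_or_gt with h | h
  · have h1 := congrArg Ev.val (noF_edges_pos g x (neg_pos.2 h) n)
    have e1 : g.exM (Z⁻¹ • gM g.M) = -g.exM ((-Z)⁻¹ • gM g.M) := by
      change exML g _ = -exML g _
      rw [← map_neg, inv_neg, neg_smul, neg_neg]
    apply Ev.val_injective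
    rw [val_noF, val_evG] at h1 ⊢
    rw [show x * Z = -(x * -Z) by ring, rev_edges, e1, gauss_reverse]
    change ExteriorAlgebra.map _ (rev _) = _
    rw [map_rev, h1, map_smul, map_smul, map_one, rev_one]
  · exact noF_edges_pos g x h n

/-- The contour sum as a Grassmann integral. -/
theorem contour (x : ℝ) {Z : ℝ} (hZ : Z ≠ 0) (F : g.Cfg → g.E) (hF : ∀ n, g.noF (F n) = F n) :
    g.Om (NormedSpace.exp (∑ y, ((Z * (x - tc)) • g.O1 y + (Z - 1) • g.O2 y)) * g.E0 (x * Z) F)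
      = Z ^ (2 * g.M ^ 2) • ∑ n, (cw n * wt g.A x n) • F n := by
  have e1 : NormedSpace.exp (tc • ∑ e : Tor g.M × Fin 2, g.edge e.1 e.2) *
      NormedSpace.exp (∑ y, ((Z * (x - tc)) • g.O1 y + (Z - 1) • g.O2 y)) =
      NormedSpace.exp ((Z - 1) • ∑ y, g.site y) *
        NormedSpace.exp ((x * Z) • ∑ e : Tor g.M × Fin 2, g.edge e.1 e.2) := by
    rw [← exp_add', ← exp_add', Finset.sum_add_distrib, ← Finset.smul_sum,
      ← Finset.smul_sum, sum_O1, sum_O2]
    congr 1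
    module
  have hC : (Z⁻¹ • gM g.M)ᵀ = -(Z⁻¹ • gM g.M) := by rw [transpose_smul, gM_anti, smul_neg]
  rw [Geo.Om, ← mul_assoc, e1, mul_assoc, E0_exp, noF_site g hZ, map_sum, map_sum]
  congr 1
  refine Finset.sum_congr rfl fun n _ => ?_
  rw [evG_src g hC (hF n), noF_mul, hF, noF_edges_ne g x hZ, mul_smul_comm, mul_one]

theorem E0_one (w : ℝ) : g.E0 w 1 = 1 := by
  rw [E0_apply]
  simp only [Pi.one_apply, one_mul]
  have := Finset.prod_univ_sum (fun _ : Tor g.M × Fin 2 => (univ : Finset Bool))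
    (fun e b => if b then w • g.edge e.1 e.2 else 1 - w • g.edge e.1 e.2)
  rw [Fintype.piFinset_univ] at this
  rw [← this]
  simp

theorem sum_Hin (q : Par) (n : g.Cfg) : ∑ X, g.Hin q X n =
    uint q n • (1 : g.E) + ∑ k, (g.src k).O (g.see (g.src k).y n) • g.bv k := by
  simp only [Geo.Hin, Finset.sum_add_distrib, ← Finset.sum_smul]
  congr 1
  · congr 1
    rw [Finset.sum_comm, uint]
    refine Finset.sum_congr rfl fun y _ => ?_
    exact Finset.sum_fiberwise _ _ _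
  · exact Finset.sum_fiberwise _ _ _

theorem exp_Hin (q : Par) (n : g.Cfg) : NormedSpace.exp (∑ X, g.Hin q X) n =
    Real.exp (uint q n) • ∏ k, (1 + (g.src k).O (g.see (g.src k).y n) • g.bv k) := by
  rw [exp_pi, Finset.sum_apply, sum_Hin, exp_add',
    exp_sum_sq _ _ fun k => smul_sq (bv_sq g k) _, ← Algebra.algebraMap_eq_smul_one,
    A2.exp_scalar, ← Algebra.smul_def]

end Vale.Agent.P144Z.I2
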