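import Vale.Agent.P144Z.I2.Part

/-!
The flow preserves the generating function.
-/

namespace Vale.Agent.P144Z.I2

open Finset Matrix A1

theorem beta_add {S : Type} [Fintype S] (F G : Gr S) (a b : S → ℝ) :
    beta (F + G) a b = beta F a b + beta G a b := by
  simp only [beta, map_add]

theorem beta_smul {S : Type} [Fintype S] (c : ℝ) (F : Gr S) (a b : S → ℝ) :
    beta (c • F) a b = c * beta F a b := by
  simp only [beta, map_smul, smul_eq_mul]

variable (g : Geo)

/-- The coefficient `nu` as a linear map. -/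
noncomputable def nuL (x : g.P) : g.E →ₗ[ℝ] ℝ where
  toFun := g.nu x
  map_add' F G := by simp only [Geo.nu, Geo.cM, map_add, beta_add]; ring
  map_smul' c F := by
    simp only [Geo.nu, Geo.cM, map_smul, beta_smul, smul_eq_mul, RingHom.id_apply]; ring

/-- The kinetic coefficients as linear maps. -/
noncomputable def cKL (x : g.P) (a b i : Fin 2) : g.E →ₗ[ℝ] ℝ where
  toFun F := g.cK x (Ev.val F) a b i
  map_add' F G := by simp only [Geo.cK, map_add, beta_add]
  map_smul' c F := by simp only [Geo.cK, map_smul, beta_smul, smul_eq_mul, RingHom.id_apply]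

/-- The coefficient `ze` as a linear map. -/
noncomputable def zeL (x : g.P) : g.E →ₗ[ℝ] ℝ :=
  tc⁻¹ • (∑ a, ∑ b, ∑ i, Geo.kt a b i • cKL g x a b i - nuL g x)

theorem zeL_apply (x : g.P) (F : g.E) : zeL g x F = g.ze x F := by
  simp only [zeL, LinearMap.smul_apply, LinearMap.sub_apply, LinearMap.sum_apply, smul_eq_mul,
    Geo.ze, div_eq_inv_mul]
  rfl

/-- The extraction as a linear map. -/
noncomputable def extL (x : g.P) : g.E →ₗ[ℝ] g.E :=
  (nuL g x).smulRight (g.O1 x) + (zeL g x).smulRight (g.O2 x) +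
    ∑ a, ∑ b, ∑ i, (cKL g x a b i - (Geo.kt a b i / 4) • (nuL g x + tc • zeL g x)).smulRight
      (pp (g.ex (fld x a)) (g.ex (dfld g.A x b i)))

theorem extL_apply (x : g.P) (F : g.E) : extL g x F = g.Ext x F := by
  simp only [extL, LinearMap.add_apply, LinearMap.sum_apply, LinearMap.smulRight_apply,
    LinearMap.sub_apply, LinearMap.smul_apply, zeL_apply, smul_eq_mul, Geo.Ext]
  refine congrArg₂ (· + ·) rfl (Finset.sum_congr rfl fun a _ => Finset.sum_congr rfl fun b _ =>
    Finset.sum_congr rfl fun i _ => congrArg (· • _) ?_)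
  change g.cK x (Ev.val F) a b i - Geo.kt a b i / 4 * (g.nu x F + _) = _
  ring

/-- The coefficient `zt` as a linear map. -/
noncomputable def ztL (k : g.K) : g.E →ₗ[ℝ] ℝ where
  toFun := g.zt k
  map_add' F G := by simp only [Geo.zt, Geo.cM, map_add, beta_add]; ring
  map_smul' c F := by
    simp only [Geo.zt, Geo.cM, map_smul, beta_smul, smul_eq_mul, RingHom.id_apply]; ring

theorem sum_car (s : g.St) : ∑ X, s.car X = ∑ x, s.v x + ∑ k, s.z k • g.bE k := by
  simp only [Geo.St.car, Finset.sum_add_distrib]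
  rw [Finset.sum_fiberwise, Finset.sum_fiberwise]

theorem sum_H (s : g.St) : ∑ X, s.H X = ∑ X, s.K X + ∑ x, s.v x + ∑ k, s.z k • g.bE k := by
  simp only [Geo.St.H, Finset.sum_add_distrib, sum_car, add_assoc]

open Classical in
theorem sum_xtr (j ℓ ℓ' : ℕ) (s : g.St) : ∑ U, g.xtr j ℓ ℓ' U (g.rem ℓ ℓ' s U) =
    ∑ x, g.Ext x (g.out ℓ ℓ' s x) + ∑ k, (∑ U ∈ univ.filter (fun U => g.XtrB j ℓ ℓ' U k),
      g.zt k (g.rem ℓ ℓ' s U)) • g.bE k := by
  simp only [Geo.xtr, Finset.sum_add_distrib]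
  congr 1
  · simp only [Geo.out, ← extL_apply, map_sum, Finset.sum_filter]
    rw [Finset.sum_comm]
    refine Finset.sum_congr rfl fun U _ => ?_
    by_cases h : g.Xtr ℓ ℓ' U
    · simp only [h, and_true, if_true, Finset.smul_sum]
      rw [← Finset.sum_ite_mem_eq]
      refine Finset.sum_congr rfl fun x _ => ?_
      split_ifs <;> simp
    · simp [h]
  · simp only [Finset.sum_filter, Finset.sum_smul]
    rw [Finset.sum_comm]
    refine Finset.sum_congr rfl fun k _ => Finset.sum_congr rfl fun U _ => ?_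
    split_ifs <;> simp

/-- One step: the new potential is the integrated one without the constants. -/
theorem sum_step (j ℓ ℓ' : ℕ) (d : ℝ × ℝ) (s : g.St) :
    ∑ X, (g.step j ℓ ℓ' d s).H X = ∑ U, g.intg ℓ ℓ' s U - ∑ U, g.noF (g.intg ℓ ℓ' s U) +
      d.1 • ∑ x, g.O1 x + d.2 • ∑ x, g.O2 x := by
  have h1 : ∑ X, (g.step j ℓ ℓ' d s).K X =
      ∑ U, g.rem ℓ ℓ' s U - ∑ U, g.xtr j ℓ ℓ' U (g.rem ℓ ℓ' s U) := by
    rw [← Finset.sum_sub_distrib]
    exact Finset.sum_fiberwise _ _ _
  have h2 : ∑ U, g.rem ℓ ℓ' s U =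
      ∑ U, g.intg ℓ ℓ' s U - ∑ U, g.noF (g.intg ℓ ℓ' s U) - ∑ U, s.car U := by
    simp only [Geo.rem, Finset.sum_sub_distrib]
  rw [sum_H, h1, h2, sum_xtr, sum_car]
  simp only [Geo.step, Finset.sum_add_distrib, add_smul, ← Finset.smul_sum]
  abel

theorem sum_init (q : Par) : ∑ X, (g.init q).H X =
    ∑ U, g.W0 q U - ∑ U, g.noF (g.W0 q U) + ∑ y, (g.init q).v y := by
  have h1 : ∑ X, (g.init q).K X =
      ∑ U, g.W0 q U - ∑ U, g.noF (g.W0 q U) - ∑ k, g.z0 q k • g.bE k := by
    simp only [Geo.init, Finset.sum_sub_distrib]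
    rw [Finset.sum_fiberwise]
  rw [sum_H, h1]
  change _ + ∑ k, g.z0 q k • g.bE k = _
  abel

theorem noF_exp (F : g.E) : g.noF (NormedSpace.exp F) = NormedSpace.exp (g.noF F) :=
  hom_exp _ (noF_one g) (noF_mul g) F

theorem evG_exM_add (C C' : Matrix (Tor g.M × Fin 4) (Tor g.M × Fin 4) ℝ) (F : g.E) :
    evG (g.exM (C + C')) F = evG (g.exM C) (evG (g.exM C') F) := by
  apply Ev.val_injective
  rw [val_evG, val_evG, val_evG, ← gauss_add]
  exact congrArg (fun C => gauss C (Ev.val F)) (map_add (exML g) C C')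

/-- The constants up to the scale `N`. -/
noncomputable def pre (L : ℕ) (q : Par) (N : ℕ) : g.E :=
  ∑ U, g.noF (g.W0 q U) + ∑ j ∈ range N, ∑ U, g.cst L q j U

theorem noF_pre (L : ℕ) (q : Par) (N : ℕ) : g.noF (pre g L q N) = pre g L q N := by
  simp only [pre, Geo.cst, map_add, map_sum, noF_noF]

theorem tot_eq (L : ℕ) (q : Par) (N : ℕ) :
    g.tot L q N = pre g L q N + g.noF (∑ U, g.last L q N U) := by
  rw [map_sum]; rfl

/-- The flow preserves the generating function. -/
theorem flow_eq (L : ℕ) (q : Par) (N : ℕ)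
    (h0 : NormedSpace.exp (∑ U, g.W0 q U) =
      g.E0 (q.x * q.Z) (NormedSpace.exp (∑ X, g.Hin q X)))
    (h : ∀ j < N, NormedSpace.exp (∑ U, g.intg (sc L j) (sc L (j + 1)) (g.flow L q 0 j) U) =
      evG (g.exM (covP (Dm g.A) (sc L j) (sc L (j + 1))))
        (NormedSpace.exp (∑ X, (g.flow L q 0 j).H X))) :
    evG (g.exM (covI (Dm g.A))) (NormedSpace.exp (∑ y, (g.init q).v y) *
      g.E0 (q.x * q.Z) (NormedSpace.exp (∑ X, g.Hin q X))) =
      NormedSpace.exp (pre g L q N) * evG (g.exM (covL (Dm g.A) (sc L N)))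
        (NormedSpace.exp (∑ X, (g.flow L q 0 N).H X)) := by
  have ha := C.Dm_anti g.A
  induction N with
  | zero =>
    rw [← evG_src g (covL_anti ha _) (by rw [noF_exp, noF_pre]), ← h0, ← exp_add', ← exp_add',
      show sc L 0 = 8 by simp [sc], covL_eight, Geo.flow, sum_init, pre, Finset.range_zero,
      Finset.sum_empty]
    congr 2
    abel
  | succ N ih =>
    have hc : g.noF (NormedSpace.exp (∑ U, g.cst L q N U)) =
        NormedSpace.exp (∑ U, g.cst L q N U) := by
      simp only [noF_exp, Geo.cst, map_sum, noF_noF]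
    have e : pre g L q (N + 1) = pre g L q N + ∑ U, g.cst L q N U := by
      rw [pre, pre, Finset.sum_range_succ, add_assoc]
    rw [ih fun j hj => h j (by omega), covL_split ha (sc L N) (sc L (N + 1)), evG_exM_add,
      ← h N (by omega), e, exp_add', mul_assoc, ← evG_src g (covL_anti ha _) hc, ← exp_add',
      Geo.flow, sum_step]
    congr 3
    simp [Geo.cst]

end Vale.Agent.P144Z.I2
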