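import Vale.Agent.P144Z.A1.Main

/-!
Change of the covariance of a Gaussian functional by integration by parts.
-/

namespace Vale.Agent.P144Z.I2

open Finset Matrix A1

variable {S S' : Type} [Fintype S] [DecidableEq S] [Fintype S'] [DecidableEq S']

omit [Fintype S] [DecidableEq S] [Fintype S'] [DecidableEq S'] in
theorem lin_unique (L : Gr S →ₗ[ℝ] Gr S') (P : (S → ℝ) →ₗ[ℝ] (S' → ℝ))
    (h : ∀ δ G, L (psi δ * G) = psi (P δ) * L G) (G : Gr S) :
    L G = ExteriorAlgebra.map P G * L 1 := by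
  induction G using left_ind with
  | h1 => rw [map_one (ExteriorAlgebra.map P), one_mul]
  | hadd F G hF hG => rw [map_add, map_add, add_mul, hF, hG]
  | hsmul c F hF => rw [map_smul, map_smul, smul_mul_assoc, hF]
  | hpsi a F hF => rw [h, hF, map_mul, map_psi, mul_assoc]

theorem gauss_neg_gauss (C : Matrix S S ℝ) (G : Gr S) : gauss (-C) (gauss C G) = G := by
  rw [← gauss_add, neg_add_cancel, gauss_zero]

omit [Fintype S'] [DecidableEq S'] in
/-- A functional with the integration by parts formula of the covariance `C` is Gaussian. -/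
theorem gauss_unique (L : Gr S →ₗ[ℝ] Gr S') (P : (S → ℝ) →ₗ[ℝ] (S' → ℝ)) {C : Matrix S S ℝ}
    (hC : Cᵀ = -C) (h : ∀ δ G, L (psi δ * G) = psi (P δ) * L G + L (del (δ ᵥ* C) G)) (G : Gr S) :
    L G = ExteriorAlgebra.map P (gauss C G) * L 1 := by
  have hC' : (-C)ᵀ = -(-C) := by rw [transpose_neg, hC]
  have := lin_unique (L ∘ₗ gauss (-C)) P (fun δ G => by
    simp only [LinearMap.comp_apply]
    rw [gauss_psi_mul hC', map_add, h, Matrix.vecMul_neg, del_neg_left, map_neg,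
      add_neg_cancel_right]) (gauss C G)
  simpa only [LinearMap.comp_apply, gauss_neg_gauss, gauss_one] using this

/-- The functional `F ↦ P (gauss C (X * F))`. -/
noncomputable def fn (P : (S → ℝ) →ₗ[ℝ] (S' → ℝ)) (C : Matrix S S ℝ) (X : Gr S) :
    Gr S →ₗ[ℝ] Gr S' :=
  (ExteriorAlgebra.map P).toLinearMap ∘ₗ gauss C ∘ₗ LinearMap.mulLeft ℝ X

omit [Fintype S'] [DecidableEq S'] in
theorem fn_apply (P : (S → ℝ) →ₗ[ℝ] (S' → ℝ)) (C : Matrix S S ℝ) (X F : Gr S) :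
    fn P C X F = ExteriorAlgebra.map P (gauss C (X * F)) := rfl

omit [Fintype S'] [DecidableEq S'] in
/-- Integration by parts with a Gaussian weight `X`. -/
theorem fn_ibp (P : (S → ℝ) →ₗ[ℝ] (S' → ℝ)) {C B : Matrix S S ℝ} (hC : Cᵀ = -C) {X : Gr S}
    (hX : X ∈ evenS S) (hd : ∀ g, del g X = psi (g ᵥ* B) * X) (δ : S → ℝ) (F : Gr S) :
    fn P C X (psi (δ - δ ᵥ* C ᵥ* B) * F) = psi (P δ) * fn P C X F + fn P C X (del (δ ᵥ* C) F) := by
  have hc : ∀ a, X * (psi a * F) = psi a * (X * F) := fun a => by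
    rw [← mul_assoc, ← psi_mul_comm_of_even hX, mul_assoc]
  have e : psi (δ - δ ᵥ* C ᵥ* B) = psi δ - psi (δ ᵥ* C ᵥ* B) := map_sub _ _ _
  rw [e, sub_mul, map_sub, sub_eq_iff_eq_add]
  simp only [fn_apply]
  rw [hc, hc, gauss_psi_mul hC, map_add, map_mul, map_psi, ← gauss_del, del_mul, hd,
    mem_even_iff.1 hX, map_add, map_add, mul_assoc]
  abel

omit [Fintype S'] [DecidableEq S'] in
/-- The change of covariance. -/
theorem fn_eq (P : (S → ℝ) →ₗ[ℝ] (S' → ℝ)) {C B C' R : Matrix S S ℝ} (hC : Cᵀ = -C)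
    (hC' : C'ᵀ = -C') {X : Gr S} (hX : X ∈ evenS S) (hd : ∀ g, del g X = psi (g ᵥ* B) * X)
    (hR : R * (1 - C * B) = 1) (hRC : R * C = C') (hP : ∀ δ, P (δ ᵥ* R) = P δ) (F : Gr S) :
    fn P C X F = ExteriorAlgebra.map P (gauss C' F) * fn P C X 1 := by
  refine gauss_unique _ P hC' (fun δ G => ?_) F
  have := fn_ibp P hC hX hd (δ ᵥ* R) G
  rw [hP, vecMul_vecMul, vecMul_vecMul, vecMul_vecMul, hRC, ← vecMul_sub] at this
  rwa [show R - R * (C * B) = 1 by rw [← hR, Matrix.mul_sub, Matrix.mul_one], vecMul_one] at this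

omit [DecidableEq S] in
theorem del_psi_add (z : S → ℝ) (hz : z ⬝ᵥ z = 1) (G : Gr S) :
    G = psi z * del z G + del z (psi z * G) := by
  rw [del_psi_mul, hz, one_smul]; abel

omit [Fintype S'] [DecidableEq S'] in
/-- A functional with two zero modes. -/
theorem zero_unique (L : Gr S →ₗ[ℝ] Gr S') (P : (S → ℝ) →ₗ[ℝ] (S' → ℝ)) {C : Matrix S S ℝ}
    (hC : Cᵀ = -C) (z₀ z₁ : S → ℝ) (h00 : z₀ ⬝ᵥ z₀ = 1) (h11 : z₁ ⬝ᵥ z₁ = 1) (h01 : z₀ ⬝ᵥ z₁ = 0)
    (hC0 : z₀ ᵥ* C = 0) (hC1 : z₁ ᵥ* C = 0)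
    (h : ∀ δ G, L (psi (δ - (δ ⬝ᵥ z₀) • z₀ - (δ ⬝ᵥ z₁) • z₁) * G) =
      psi (P δ) * L G + L (del (δ ᵥ* C) G))
    (h0 : ∀ G, L (del z₀ G) = 0) (h1 : ∀ G, L (del z₁ G) = 0) (G : Gr S) :
    L G = ExteriorAlgebra.map P (gauss C (del z₁ (del z₀ G))) * L (psi z₀ * psi z₁) := by
  have hev := psi_psi_even z₀ z₁
  have e1 : L G = L (psi z₀ * psi z₁ * del z₁ (del z₀ G)) := by
    conv_lhs => rw [del_psi_add z₀ h00 G, map_add, h0, add_zero, del_psi_add z₁ h11 (del z₀ G),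
      mul_add, map_add]
    have : psi z₀ * del z₁ (psi z₁ * del z₀ G) = -del z₁ (psi z₀ * (psi z₁ * del z₀ G)) := by
      rw [del_psi_mul z₁ z₀, h01, zero_smul, zero_sub, neg_neg]
    rw [this, map_neg, h1, neg_zero, add_zero, mul_assoc]
  have key := gauss_unique (L ∘ₗ LinearMap.mulLeft ℝ (psi z₀ * psi z₁)) P hC (fun δ H => by
    simp only [LinearMap.comp_apply, LinearMap.mulLeft_apply]
    have a0 : psi z₀ * (psi z₀ * psi z₁ * H) = 0 := by
      rw [← mul_assoc, ← mul_assoc, psi_sq, zero_mul, zero_mul]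
    have a1 : psi z₁ * (psi z₀ * psi z₁ * H) = 0 := by
      rw [← mul_assoc, psi_mul_comm_of_even hev, mul_assoc (psi z₀), psi_sq, mul_zero, zero_mul]
    have hs : psi (δ - (δ ⬝ᵥ z₀) • z₀ - (δ ⬝ᵥ z₁) • z₁) =
        psi δ - (δ ⬝ᵥ z₀) • psi z₀ - (δ ⬝ᵥ z₁) • psi z₁ := by
      simp only [psi, map_sub, map_smul]
    have b0 : z₀ ⬝ᵥ δ ᵥ* C = 0 := by
      rw [← mulVec_transpose, hC, dotProduct_mulVec, vecMul_neg, hC0, neg_zero, zero_dotProduct]
    have b1 : z₁ ⬝ᵥ δ ᵥ* C = 0 := by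
      rw [← mulVec_transpose, hC, dotProduct_mulVec, vecMul_neg, hC1, neg_zero, zero_dotProduct]
    have hd : del (δ ᵥ* C) (psi z₀ * psi z₁) = 0 := by
      rw [del_psi_mul, del_psi, b0, b1, zero_smul, zero_smul, mul_zero, sub_zero]
    have := h δ (psi z₀ * psi z₁ * H)
    rw [hs, sub_mul, sub_mul, smul_mul_assoc, smul_mul_assoc, a0, a1, smul_zero, smul_zero,
      sub_zero, sub_zero, del_mul, hd, zero_mul, zero_add, mem_even_iff.1 hev] at this
    rw [← this, ← mul_assoc, ← psi_mul_comm_of_even hev, mul_assoc]) (del z₁ (del z₀ G))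
  rw [e1]
  simpa only [LinearMap.comp_apply, LinearMap.mulLeft_apply, mul_one] using key

end Vale.Agent.P144Z.I2
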