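import Vale.Agent.P144Z.I2.Quad
import Vale.Agent.P144Z.C.Main

/-!
The critical free functional is Gaussian with the covariance `covI`.
-/

namespace Vale.Agent.P144Z.I2

open Finset Matrix A1

variable (g : Geo)

/-- The critical free functional on the whole Grassmann algebra. -/
noncomputable def OmL : Gr g.S →ₗ[ℝ] Gr g.S :=
  fn (pS g) (g.exM (gM g.M))
    (Ev.val (NormedSpace.exp (tc • ∑ e : Tor g.M × Fin 2, g.edge e.1 e.2)))

theorem val_noF (F : g.E) : Ev.val (g.noF F) = ExteriorAlgebra.map (pS g) (Ev.val F) :=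
  val_evMap _ F

theorem val_Om (F : g.E) : Ev.val (g.Om F) = OmL g (Ev.val F) := by
  rw [Geo.Om, val_noF, val_evG, map_mul]
  rfl

theorem del_exp_exM (U : Matrix (Tor g.M × Fin 4) (Tor g.M × Fin 4) ℝ) (c : ℝ) (η : g.S → ℝ) :
    del η (Ev.val (NormedSpace.exp (c • qd (g.exM U)))) =
      psi (η ᵥ* g.exM (c • (U - Uᵀ))) * Ev.val (NormedSpace.exp (c • qd (g.exM U))) := by
  rw [← map_smul, del_exp_qd]
  congr 3
  change _ = exML g (c • (U - Uᵀ))
  rw [map_smul, map_sub, transpose_smul, ← smul_sub, exM_tr]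
  rfl

theorem pS_pS (δ : g.S → ℝ) : pS g (pS g δ) = pS g δ := by
  funext s
  rcases s with s | k
  · rw [pS_inl, pS_inl]
  · rw [pS_inr]

theorem pS_inl' (δ : g.S → ℝ) : pS g δ ∘ Sum.inl = 0 := funext fun s => pS_inl g δ s

theorem ex_zero : g.ex 0 = 0 := map_zero (exL g)

theorem OmL_src (δ : g.S → ℝ) (F : Gr g.S) :
    OmL g (psi (pS g δ) * F) = psi (pS g δ) * OmL g F := by
  have := fn_ibp (pS g) (exM_anti g (gM_anti g.M)) (Ev.val_mem _)
    (del_exp_exM g (hM g.A) tc) (pS g δ) F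
  rw [vecMul_exM g (pS g δ), pS_inl', zero_vecMul, ex_zero, zero_vecMul, sub_zero, pS_pS,
    del_zero_left, map_zero, add_zero, ← sum_edge] at this
  exact this

theorem OmL_fld (η : Tor g.M × Fin 4 → ℝ) (F : Gr g.S) :
    OmL g (psi (g.ex (η ᵥ* Dm g.A)) * F) = -OmL g (del (g.ex η) F) := by
  have h1 : sM g.M * gM g.M = -1 := by
    have : gM g.M * -sM g.M = 1 := by rw [Matrix.mul_neg, gM_mul_sM, neg_neg]
    rw [← neg_eq_iff_eq_neg, ← Matrix.neg_mul]
    exact mul_eq_one_comm.1 this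
  have := fn_ibp (pS g) (exM_anti g (gM_anti g.M)) (Ev.val_mem _)
    (del_exp_exM g (hM g.A) tc) (g.ex (η ᵥ* sM g.M)) F
  rw [vecMul_exM g (g.ex (η ᵥ* sM g.M)), ex_inl, vecMul_vecMul, h1, vecMul_neg, vecMul_one, vecMul_exM, ex_inl, pS_ex,
    psi_zero, zero_mul, zero_add, ← sum_edge] at this
  have e1 : g.ex (η ᵥ* sM g.M) - g.ex (-η ᵥ* (tc • (hM g.A - (hM g.A)ᵀ))) =
      g.ex (η ᵥ* Dm g.A) := by
    change exL g _ - exL g _ = exL g _
    rw [← map_sub, Dm_eq, vecMul_add, neg_vecMul, sub_neg_eq_add]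
  have e2 : g.ex (-η) = -g.ex η := map_neg (exL g) η
  rw [e1, e2, del_neg_left, map_neg] at this
  exact this

theorem OmL_gen (δ : g.S → ℝ) (G : Gr g.S) :
    OmL g (psi (g.ex (-((δ ∘ Sum.inl) ᵥ* (covI (Dm g.A) * Dm g.A))) + pS g δ) * G) =
      psi (pS g δ) * OmL g G + OmL g (del (δ ᵥ* g.exM (covI (Dm g.A))) G) := by
  have e2 : ∀ η, g.ex (-η) = -g.ex η := fun η => map_neg (exL g) η
  rw [psi_add, add_mul, map_add, OmL_src, add_comm, ← vecMul_vecMul, ← neg_vecMul, OmL_fld, e2,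
    del_neg_left, map_neg, neg_neg, vecMul_exM]

/-- The free functional if the fermion operator is invertible. -/
theorem Om_inv (hD : ∀ φ, Dm g.A *ᵥ φ = 0 → φ = 0) (F : g.E) :
    g.Om F = g.noF (evG (g.exM (covI (Dm g.A))) F) * g.Om 1 := by
  have ha := C.Dm_anti g.A
  have h1 : covI (Dm g.A) * Dm g.A = -1 := by
    have h2 : Dm g.A * (covI (Dm g.A) * Dm g.A + 1) = 0 := by
      rw [Matrix.mul_add, ← Matrix.mul_assoc, (covI_mul ha).1, Matrix.mul_one, neg_add_cancel]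
    rw [← add_eq_zero_iff_eq_neg]
    refine Matrix.ext_iff_mulVec.2 fun v => ?_
    rw [zero_mulVec]
    apply hD
    rw [mulVec_mulVec, h2, zero_mulVec]
  apply Ev.val_injective
  rw [map_mul, val_Om, val_Om, val_noF, val_evG, map_one]
  refine gauss_unique _ _ (exM_anti g (covI_anti ha)) (fun δ G => ?_) _
  have := OmL_gen g δ G
  rwa [h1, vecMul_neg, neg_neg, vecMul_one, ← split] at this

/-- The free functional if the fermion operator has two zero modes. -/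
theorem Om_zero (z₀ z₁ : Tor g.M × Fin 4 → ℝ) (h00 : z₀ ⬝ᵥ z₀ = 1) (h11 : z₁ ⬝ᵥ z₁ = 1)
    (h01 : z₀ ⬝ᵥ z₁ = 0) (h0 : Dm g.A *ᵥ z₀ = 0) (h1 : Dm g.A *ᵥ z₁ = 0)
    (hker : ∀ φ, Dm g.A *ᵥ φ = 0 → φ = (z₀ ⬝ᵥ φ) • z₀ + (z₁ ⬝ᵥ φ) • z₁) (F : Gr g.S) :
    OmL g F = ExteriorAlgebra.map (pS g) (gauss (g.exM (covI (Dm g.A)))
      (del (g.ex z₁) (del (g.ex z₀) F))) * OmL g (psi (g.ex z₀) * psi (g.ex z₁)) := by
  have ha := C.Dm_anti g.A
  have hv : ∀ z, Dm g.A *ᵥ z = 0 → z ᵥ* Dm g.A = 0 := fun z hz => by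
    rw [← mulVec_transpose, ha, neg_mulVec, hz, neg_zero]
  have hc : ∀ z, Dm g.A *ᵥ z = 0 → g.ex z ᵥ* g.exM (covI (Dm g.A)) = 0 := fun z hz => by
    rw [vecMul_exM, ex_inl, covI, ← vecMul_vecMul, hv z hz, zero_vecMul, ex_zero]
  have hd : ∀ z, Dm g.A *ᵥ z = 0 → ∀ G, OmL g (del (g.ex z) G) = 0 := fun z hz G => by
    rw [← neg_eq_zero, ← OmL_fld, hv z hz, ex_zero, psi_zero, zero_mul, map_zero]
  refine zero_unique _ _ (exM_anti g (covI_anti ha)) _ _ (by rw [ex_dot, ex_inl, h00])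
    (by rw [ex_dot, ex_inl, h11]) (by rw [ex_dot, ex_inl, h01]) (hc _ h0) (hc _ h1)
    (fun δ G => ?_) (hd _ h0) (hd _ h1) F
  rw [← OmL_gen]
  congr 3
  set η := δ ∘ Sum.inl with hη
  have hs : (covI (Dm g.A) * Dm g.A)ᵀ = covI (Dm g.A) * Dm g.A := by
    rw [transpose_mul, ha, covI_anti ha, Matrix.neg_mul, Matrix.mul_neg, neg_neg, (covI_mul ha).2.1]
  have hk : Dm g.A *ᵥ (η + (covI (Dm g.A) * Dm g.A) *ᵥ η) = 0 := by
    rw [mulVec_add, mulVec_mulVec, ← Matrix.mul_assoc, (covI_mul ha).1, neg_mulVec, add_neg_cancel]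
  have hz : ∀ z, Dm g.A *ᵥ z = 0 → z ⬝ᵥ (η + (covI (Dm g.A) * Dm g.A) *ᵥ η) = η ⬝ᵥ z :=
    fun z hz => by
      rw [dotProduct_add, dotProduct_mulVec, ← (covI_mul ha).2.1, ← vecMul_vecMul, hv z hz,
        zero_vecMul, zero_dotProduct, add_zero, dotProduct_comm]
  have e := hker _ hk
  rw [hz _ h0, hz _ h1] at e
  rw [ex_dot, ex_dot, ← hη, ← mulVec_transpose, hs, eq_sub_of_add_eq' e]
  conv_lhs => rw [split g δ, ← hη]
  change exL g _ + _ - _ • exL g _ - _ • exL g _ = exL g _ + _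
  simp only [map_neg, map_sub, map_add, map_smul]
  abel

/-- The algebra of the sources. -/
theorem noF_loc (F : g.E) : Ev.val (g.noF F) ∈ loc (Set.range (Sum.inr : _ → g.S)) := by
  rw [val_noF]
  refine map_loc (mem_loc_univ _) fun s _ s' hs' => ?_
  rcases s' with s' | k
  · exact pS_inl g _ s'
  · exact absurd ⟨k, rfl⟩ hs'

theorem noF_mul (F G : g.E) : g.noF (F * G) = g.noF F * g.noF G := evMap_mul _ F G

theorem noF_one : g.noF 1 = 1 := evMap_one _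

theorem noF_noF (F : g.E) : g.noF (g.noF F) = g.noF F := by
  apply Ev.val_injective
  rw [val_noF g (g.noF F)]
  exact map_res (noF_loc g F)

theorem evG_src {C : Matrix (Tor g.M × Fin 4) (Tor g.M × Fin 4) ℝ} (hC : Cᵀ = -C) {F : g.E}
    (hF : g.noF F = F) (G : g.E) : evG (g.exM C) (F * G) = F * evG (g.exM C) G := by
  have hl : Ev.val F ∈ loc (Set.range (Sum.inr : _ → g.S)) := hF ▸ noF_loc g F
  have h0 : ∀ s ∈ Set.range (Sum.inr : _ → g.S), ∀ t, g.exM C s t = 0 := by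
    rintro _ ⟨k, rfl⟩ t
    rcases t with t | t <;> rfl
  apply Ev.val_injective
  rw [val_evG, map_mul Ev.val, map_mul Ev.val, val_evG, gauss_mul (exM_anti g hC) hl (mem_loc_univ _)
    fun s hs t _ => h0 s hs t, gauss_congr (C' := 0) (exM_anti g hC) (by simp) hl
    fun s hs t _ => h0 s hs t, gauss_zero]

theorem Om_src {F : g.E} (hF : g.noF F = F) (G : g.E) : g.Om (F * G) = F * g.Om G := by
  rw [Geo.Om, Geo.Om, mul_left_comm, evG_src g (gM_anti _) hF, noF_mul, hF]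

theorem Om_add (F G : g.E) : g.Om (F + G) = g.Om F + g.Om G := by
  simp only [Geo.Om, mul_add, map_add]

theorem Om_smul (c : ℝ) (F : g.E) : g.Om (c • F) = c • g.Om F := by
  simp only [Geo.Om, mul_smul_comm, map_smul]

theorem noF_Om (F : g.E) : g.noF (g.Om F) = g.Om F := noF_noF g _

end Vale.Agent.P144Z.I2
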