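import Vale.Agent.P144Z.I2.Gen
import Vale.Agent.P144Z.A2.Main
import Vale.Agent.P144Z.Ising

/-!
Quadratic forms in the Grassmann algebra of a geometry.
-/

namespace Vale.Agent.P144Z.I2

open Finset Matrix A1

section
variable {S S' : Type} [Fintype S] [DecidableEq S] [Fintype S'] [DecidableEq S']

/-- The quadratic form of a matrix. -/
noncomputable def qd : Matrix S S ℝ →ₗ[ℝ] Ev S where
  toFun U := ∑ s, ∑ t, U s t • pp (Pi.single s 1) (Pi.single t 1)
  map_add' U V := by simp [add_smul, Finset.sum_add_distrib]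
  map_smul' c U := by simp [Finset.smul_sum, smul_smul]

theorem qd_apply (U : Matrix S S ℝ) :
    qd U = ∑ s, ∑ t, U s t • pp (Pi.single s 1) (Pi.single t 1) := rfl

theorem qd_single (s t : S) : qd (Matrix.single s t 1) = pp (Pi.single s 1) (Pi.single t 1) := by
  rw [qd_apply, Finset.sum_eq_single s, Finset.sum_eq_single t]
  · simp
  · intro b _ hb; simp [hb.symm]
  · simp
  · intro b _ hb; simp [hb.symm]
  · simp

theorem del_pp (g a b : S → ℝ) :
    del g (Ev.val (pp a b)) = psi ((a ⬝ᵥ g) • b - (b ⬝ᵥ g) • a) := by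
  rw [val_pp, del_psi_mul, del_psi, mul_smul_comm, mul_one]
  simp only [psi, map_sub, map_smul]

theorem del_qd (g : S → ℝ) (U : Matrix S S ℝ) :
    del g (Ev.val (qd U)) = psi (g ᵥ* (U - Uᵀ)) := by
  simp only [qd_apply, map_sum, map_smul, del_pp]
  unfold psi
  simp only [← map_smul, ← map_sum]
  congr 1
  funext r
  simp only [Finset.sum_apply, Pi.smul_apply, Pi.sub_apply, smul_eq_mul,
    Pi.single_apply, mul_sub, Finset.sum_sub_distrib, vecMul, dotProduct, Matrix.sub_apply,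
    transpose_apply, mul_ite, mul_one, mul_zero]
  congr 1
  · refine Finset.sum_congr rfl fun s _ => ?_
    rw [Finset.sum_ite_eq]; simp [mul_comm]
  · rw [Finset.sum_comm]
    refine Finset.sum_congr rfl fun s _ => ?_
    rw [Finset.sum_ite_eq]; simp [mul_comm]

theorem del_exp_qd (g : S → ℝ) (U : Matrix S S ℝ) :
    del g (Ev.val (NormedSpace.exp (qd U))) =
      psi (g ᵥ* (U - Uᵀ)) * Ev.val (NormedSpace.exp (qd U)) := by
  rw [del_exp, del_qd]

theorem pp_sq (a b : S → ℝ) : pp a b * pp a b = 0 := by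
  apply Ev.val_injective
  rw [map_mul, val_pp, map_zero, mul_assoc, ← mul_assoc (psi b), psi_swap b a, neg_mul, mul_neg,
    mul_assoc, psi_sq, mul_zero, mul_zero, neg_zero]

theorem smul_sq {F : Ev S} (h : F * F = 0) (c : ℝ) : c • F * c • F = 0 := by
  rw [smul_mul_smul_comm, h, smul_zero]

theorem evMap_mul (f : (S → ℝ) →ₗ[ℝ] (S' → ℝ)) (F G : Ev S) :
    evMap f (F * G) = evMap f F * evMap f G := by
  apply Ev.val_injective
  simp only [val_evMap, map_mul]

theorem evMap_one (f : (S → ℝ) →ₗ[ℝ] (S' → ℝ)) : evMap f 1 = 1 := by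
  apply Ev.val_injective
  simp only [val_evMap, map_one]

theorem evMap_pp (f : (S → ℝ) →ₗ[ℝ] (S' → ℝ)) (a b : S → ℝ) :
    evMap f (pp a b) = pp (f a) (f b) := by
  apply Ev.val_injective
  simp only [val_evMap, val_pp, map_mul, map_psi]

theorem evMap_prod (f : (S → ℝ) →ₗ[ℝ] (S' → ℝ)) {ι : Type} (s : Finset ι) (F : ι → Ev S) :
    evMap f (∏ i ∈ s, F i) = ∏ i ∈ s, evMap f (F i) := by
  classical
  induction s using Finset.induction_on with
  | empty => simp [evMap_one]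
  | insert a s ha ih => rw [Finset.prod_insert ha, Finset.prod_insert ha, evMap_mul, ih]

theorem pp_smul_smul (c d : ℝ) (a b : S → ℝ) : pp (c • a) (d • b) = (c * d) • pp a b := by
  apply Ev.val_injective
  rw [map_smul, val_pp, val_pp, psi_smul, psi_smul, smul_mul_smul_comm]

omit [Fintype S] [DecidableEq S] [Fintype S'] [DecidableEq S'] in
theorem map_zero_eq (F : Gr S) :
    ExteriorAlgebra.map (0 : (S → ℝ) →ₗ[ℝ] (S' → ℝ)) F = aug F • 1 := by
  induction F using left_ind with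
  | h1 => simp
  | hadd F G hF hG => rw [map_add, map_add, add_smul, hF, hG]
  | hsmul c F hF => rw [map_smul, map_smul, hF, smul_smul, smul_eq_mul]
  | hpsi a F _ =>
    rw [map_mul, map_mul, map_psi, aug_psi, LinearMap.zero_apply, psi_zero, zero_mul, zero_mul,
      zero_smul]

omit [Fintype S] [DecidableEq S] [Fintype S'] [DecidableEq S'] in
theorem map_map {S'' : Type} (f : (S → ℝ) →ₗ[ℝ] (S' → ℝ)) (f' : (S' → ℝ) →ₗ[ℝ] (S'' → ℝ))
    (F : Gr S) : ExteriorAlgebra.map f' (ExteriorAlgebra.map f F) =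
      ExteriorAlgebra.map (f' ∘ₗ f) F := by
  rw [← ExteriorAlgebra.map_comp_map]; rfl

end

theorem sum_pf {α β : Type} [Fintype α] [AddCommMonoid β] {k : ℕ} (f : α × Fin k → β) :
    ∑ s, f s = ∑ x, ∑ a, f (x, a) := Fintype.sum_prod_type f

theorem gA_eq : gA = ![![0, 1, -1, 1], ![-1, 0, 1, -1], ![1, -1, 0, 1], ![-1, 1, -1, 0]] := by
  funext a b
  fin_cases a <;> fin_cases b <;> simp [gA] <;> norm_num

variable (g : Geo)

/-- The projection on the sources. -/
noncomputable abbrev pS : (g.S → ℝ) →ₗ[ℝ] (g.S → ℝ) := res (Set.range Sum.inr)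

theorem pS_inl (δ : g.S → ℝ) (s : Tor g.M × Fin 4) : pS g δ (Sum.inl s) = 0 := by
  exact if_neg (by simp)

theorem pS_inr (δ : g.S → ℝ) (k : g.K × Fin 2) : pS g δ (Sum.inr k) = δ (Sum.inr k) := by
  exact if_pos ⟨k, rfl⟩

theorem pS_ex (δ : Tor g.M × Fin 4 → ℝ) : pS g (g.ex δ) = 0 := by
  funext s
  rcases s with s | k
  · exact pS_inl g _ s
  · rw [pS_inr]; rfl

theorem split (δ : g.S → ℝ) : δ = g.ex (δ ∘ Sum.inl) + pS g δ := by
  funext s
  rcases s with s | k
  · rw [Pi.add_apply, pS_inl, add_zero]; rfl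
  · rw [Pi.add_apply, pS_inr]; exact (zero_add _).symm

theorem ex_single (s : Tor g.M × Fin 4) : g.ex (Pi.single s 1) = Pi.single (Sum.inl s) 1 := by
  funext t
  rcases t with t | k <;> simp [Geo.ex, Pi.single_apply]

theorem vecMul_exM (δ : g.S → ℝ) (C : Matrix (Tor g.M × Fin 4) (Tor g.M × Fin 4) ℝ) :
    δ ᵥ* g.exM C = g.ex ((δ ∘ Sum.inl) ᵥ* C) := by
  rw [Geo.exM, Matrix.vecMul_fromBlocks]
  simp [Geo.ex]

theorem ex_inl (δ : Tor g.M × Fin 4 → ℝ) : g.ex δ ∘ Sum.inl = δ := rfl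

theorem ex_dot (δ : Tor g.M × Fin 4 → ℝ) (η : g.S → ℝ) : η ⬝ᵥ g.ex δ = (η ∘ Sum.inl) ⬝ᵥ δ := by
  simp [Geo.ex, dotProduct, Fintype.sum_sum_type]

theorem exM_anti {C : Matrix (Tor g.M × Fin 4) (Tor g.M × Fin 4) ℝ} (hC : Cᵀ = -C) :
    (g.exM C)ᵀ = -g.exM C := by
  simp [Geo.exM, Matrix.fromBlocks_transpose, Matrix.fromBlocks_neg, hC]

/-- The extension by zero as a linear map. -/
def exL : (Tor g.M × Fin 4 → ℝ) →ₗ[ℝ] (g.S → ℝ) where
  toFun := g.ex
  map_add' a b := by funext s; rcases s with s | k <;> simp [Geo.ex]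
  map_smul' c a := by funext s; rcases s with s | k <;> simp [Geo.ex]

/-- The same for matrices. -/
def exML : Matrix (Tor g.M × Fin 4) (Tor g.M × Fin 4) ℝ →ₗ[ℝ] Matrix g.S g.S ℝ where
  toFun := g.exM
  map_add' a b := by simp [Geo.exM, Matrix.fromBlocks_add]
  map_smul' c a := by simp [Geo.exM, Matrix.fromBlocks_smul]

theorem exM_tr (C : Matrix (Tor g.M × Fin 4) (Tor g.M × Fin 4) ℝ) : (g.exM C)ᵀ = g.exM Cᵀ := by
  simp [Geo.exM, Matrix.fromBlocks_transpose]

theorem exM_single (s t : Tor g.M × Fin 4) :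
    g.exM (Matrix.single s t 1) = Matrix.single (Sum.inl s) (Sum.inl t) 1 := by
  ext a b
  rcases a with a | a <;> rcases b with b | b <;> simp [Geo.exM, Matrix.single_apply]

/-- The hopping matrix. -/
def hM {M : ℕ} (A : Gauge M) : Matrix (Tor M × Fin 4) (Tor M × Fin 4) ℝ := Matrix.of (hop A)

/-- The upper part of the site matrix. -/
def uM (M : ℕ) : Matrix (Tor M × Fin 4) (Tor M × Fin 4) ℝ :=
  Matrix.of fun s t => if s.1 = t.1 ∧ s.2 < t.2 then 1 else 0

/-- The site matrix. -/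
def sM (M : ℕ) : Matrix (Tor M × Fin 4) (Tor M × Fin 4) ℝ :=
  Matrix.of fun s t => if s.1 = t.1 then sA s.2 t.2 else 0

theorem uM_sub (M : ℕ) : uM M - (uM M)ᵀ = sM M := by
  ext ⟨x, a⟩ ⟨y, b⟩
  simp only [uM, sM, sA, Matrix.sub_apply, transpose_apply, of_apply]
  by_cases h : x = y
  · subst h
    rcases lt_trichotomy a b with h | h | h
    · simp [h, h.not_gt]
    · simp [h]
    · simp [h, h.not_gt]
  · simp [h, Ne.symm h]

theorem Dm_eq {M : ℕ} (A : Gauge M) : Dm A = sM M + tc • (hM A - (hM A)ᵀ) := by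
  ext s t
  simp [Dm, sM, hM]

theorem gM_mul_sM (M : ℕ) [NeZero M] : gM M * sM M = -1 := by
  ext ⟨x, a⟩ ⟨y, b⟩
  simp only [Matrix.mul_apply, gM, sM, of_apply, sum_pf, Matrix.neg_apply,
    Matrix.one_apply, Prod.mk.injEq]
  rw [Finset.sum_eq_single x]
  · by_cases h : x = y
    · subst h
      fin_cases a <;> fin_cases b <;> simp [Fin.sum_univ_four, gA_eq, sA]
    · simp [h]
  · intro z _ hz; simp [hz.symm]
  · simp

theorem gM_anti (M : ℕ) : (gM M)ᵀ = -gM M := by
  ext ⟨x, a⟩ ⟨y, b⟩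
  simp only [gM, transpose_apply, of_apply, Matrix.neg_apply]
  by_cases h : x = y
  · subst h
    fin_cases a <;> fin_cases b <;> simp [gA_eq]
  · simp [h, Ne.symm h]

theorem hM_eq {M : ℕ} [NeZero M] (A : Gauge M) : hM A = ∑ e : Tor M × Fin 2, A e •
    Matrix.single (e.1, if e.2 = 0 then (0 : Fin 4) else 1)
      (e.1 + uv M e.2, if e.2 = 0 then (2 : Fin 4) else 3) (1 : ℝ) := by
  ext ⟨x, a⟩ ⟨y, b⟩
  simp only [hM, hop, of_apply, Matrix.sum_apply, Matrix.smul_apply, Matrix.single_apply,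
    sum_pf, Fin.sum_univ_two, Prod.mk.injEq, smul_eq_mul, mul_ite, mul_one, mul_zero]
  rw [Finset.sum_eq_single x]
  · simp only [true_and, if_true, Fin.one_eq_zero_iff, OfNat.ofNat_ne_one, if_false]
    congr 1 <;> refine if_congr ?_ rfl rfl <;> tauto
  · intro z _ hz; simp [hz]
  · simp

theorem sum_edge : ∑ e : Tor g.M × Fin 2, g.edge e.1 e.2 = qd (g.exM (hM g.A)) := by
  change _ = qd (exML g (hM g.A))
  rw [hM_eq, map_sum, map_sum]
  refine Finset.sum_congr rfl fun e _ => ?_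
  rw [map_smul, map_smul]
  change _ = g.A e • qd (g.exM _)
  rw [exM_single, qd_single]
  rfl

theorem sum_site : ∑ x, g.site x = qd (g.exM (uM g.M)) := by
  rw [qd_apply]
  simp only [Fintype.sum_sum_type, Geo.exM, fromBlocks_apply₁₁, fromBlocks_apply₁₂,
    fromBlocks_apply₂₁, fromBlocks_apply₂₂, Matrix.zero_apply, zero_smul, Finset.sum_const_zero,
    add_zero, sum_pf, uM, of_apply, Geo.site]
  refine Finset.sum_congr rfl fun x _ => Finset.sum_congr rfl fun a _ => ?_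
  rw [Finset.sum_eq_single x]
  · refine Finset.sum_congr rfl fun b _ => ?_
    by_cases h : a < b <;> simp [h]
  · intro z _ hz; simp [hz.symm]
  · simp

theorem sum_O1 : ∑ x, g.O1 x = ∑ e : Tor g.M × Fin 2, g.edge e.1 e.2 := by
  have h : ∀ i, ∑ x : g.P, g.edge (x - uv g.M i) i = ∑ x : g.P, g.edge x i := fun i =>
    (Equiv.subRight (uv g.M i)).sum_comp fun x => g.edge x i
  simp only [Geo.O1, ← Finset.smul_sum]
  rw [Finset.sum_comm, Fintype.sum_prod_type, Finset.sum_comm (γ := Tor g.M)]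
  simp only [Finset.sum_add_distrib, h]
  rw [← two_smul ℝ, smul_smul]
  norm_num

theorem sum_O2 : ∑ x, g.O2 x = ∑ x, g.site x + tc • ∑ e : Tor g.M × Fin 2, g.edge e.1 e.2 := by
  simp only [Geo.O2, Finset.sum_add_distrib, ← Finset.smul_sum, sum_O1]

theorem edge_sq (x : g.P) (i : Fin 2) : g.edge x i * g.edge x i = 0 := smul_sq (pp_sq _ _) _

theorem bv_sq (k : g.K) : g.bv k * g.bv k = 0 := pp_sq _ _

end Vale.Agent.P144Z.I2
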